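import Vale.Agent.P240.R2.H986.X.P3G
import Vale.Agent.P240.R2.H165.XD

/-!
Few automorphisms, with the conditions on the Cartan integers and on their parities.
-/

set_option autoImplicit false

namespace Vale.Agent.P240.R2.H986.X

open Subgroup Vale.Agent.P240.K Vale.Agent.P240.H195 Vale.Agent.P240.R2.H164.EX
  Vale.Agent.P240.R2.H997

universe u

section
variable {ι : Type*} {F : Type*} [Field F] {L : Type u} [Group L] {C : RC ι} {x : ι → F → L}

namespace CS

variable (h : CS C x)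
include h

/-- the Cartan integers are preserved -/
theorem third {q : ℕ} [Fact q.Prime] [CharP F q] {e : MulAut L} {π : Equiv.Perm {i // C.simp i}}
    {σ : {i // C.simp i} → F ≃+* F} {c : {i // C.simp i} → F} (hc : ∀ i, c i ≠ 0 ∧
        ∀ t, e (x i.1 t) = x (π i).1 (c i * σ i t) ∧
          e (x (C.neg i.1) t) = x (C.neg (π i).1) ((c i)⁻¹ * σ i t)) :
    (q = 2 ∨ q = 3) ∨ ∀ i j, C.pr i.1 j.1 = C.pr (π i).1 (π j).1 := by
  by_cases hq2 : q = 2
  · exact Or.inl (Or.inl hq2)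
  by_cases hq3 : q = 3
  · exact Or.inl (Or.inr hq3)
  right
  intro i j
  by_cases hij : i = j
  · subst hij
    rw [C.pr_self, C.pr_self]
  have hij' : (i : ι) ≠ j := fun e1 => hij (Subtype.ext e1)
  have hij'' : (π i : ι) ≠ π j := fun e1 => hij (π.injective (Subtype.ext e1))
  have hb1 := C.pr_bd j.1 i.1 j.2 i.2 (Ne.symm hij')
  have hb2 := C.pr_bd (π j).1 (π i).1 (π j).2 (π i).2 (Ne.symm hij'')
  have hqp : q.Prime := Fact.out
  have cast_ne : ∀ m : ℕ, 0 < m → m < 5 → (m : F) ≠ 0 := by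
    intro m hm hm5 e0
    rw [CharP.cast_eq_zero_iff F q] at e0
    have h5 := Nat.le_of_dvd hm e0
    have h6 := hqp.two_le
    have h7 : q = 4 := by omega
    rw [h7] at hqp
    exact absurd hqp (by norm_num)
  have h20 : (2 : F) ≠ 0 := by exact_mod_cast cast_ne 2 (by norm_num) (by norm_num)
  have h30 : (3 : F) ≠ 0 := by exact_mod_cast cast_ne 3 (by norm_num) (by norm_num)
  have hrel : ∀ t : F, t ≠ 0 → (σ j) t = t → (σ i) t = t →
      t ^ C.pr i.1 j.1 = t ^ C.pr (π i).1 (π j).1 := by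
    intro t ht hj hi
    have h5 := h.torus_rel (hc j).1 (hc i).1 (hc j).2 (fun t => ((hc i).2 t).1) ht
    rwa [hi, hj] at h5
  have r2 := hrel 2 h20 (map_ofNat _ 2) (map_ofNat _ 2)
  have r3 := hrel 3 h30 (map_ofNat _ 3) (map_ofNat _ 3)
  have d2 : (2 : F) ^ (C.pr i.1 j.1 - C.pr (π i).1 (π j).1) = 1 := by
    rw [zpow_sub₀ h20, r2, div_self (zpow_ne_zero _ h20)]
  have d3 : (3 : F) ^ (C.pr i.1 j.1 - C.pr (π i).1 (π j).1) = 1 := by
    rw [zpow_sub₀ h30, r3, div_self (zpow_ne_zero _ h30)]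
  -- the difference is at most three
  have hnat : ∀ m : ℕ, m ≤ 3 → (2 : F) ^ m = 1 → (3 : F) ^ m = 1 → m = 0 := by
    intro m hm e2 e3
    interval_cases m
    · rfl
    · exfalso
      have : (1 : F) = 0 := by linear_combination e2
      exact one_ne_zero this
    · exfalso
      have : (3 : F) = 0 := by linear_combination e2
      exact h30 this
    · exfalso
      have : (1 : F) = 0 := by linear_combination e3 * 3 - e2 * 11
      exact one_ne_zero this
  rcases le_total (C.pr (π i).1 (π j).1) (C.pr i.1 j.1) with hle | hle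
  · obtain ⟨m, hm⟩ := Int.eq_ofNat_of_zero_le (sub_nonneg.2 hle)
    rw [hm, zpow_natCast] at d2 d3
    have := hnat m (by omega) d2 d3
    omega
  · obtain ⟨m, hm⟩ := Int.eq_ofNat_of_zero_le (sub_nonneg.2 hle)
    have hm' : C.pr i.1 j.1 - C.pr (π i).1 (π j).1 = -(m : ℤ) := by omega
    rw [hm', zpow_neg, zpow_natCast] at d2 d3
    have := hnat m (by omega) (inv_eq_one.1 d2) (inv_eq_one.1 d3)
    omega

variable [Finite L] [Finite F] {r : ℕ} (hr : r.Prime)
  (hb : SB r (BB C x) (NN C x) (UU C x) (SS C x))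
  (hb' : SB r (BB C.opp x) (NN C.opp x) (UU C.opp x) (SS C.opp x))
  (hp : IsPGroup r (UM C x)) (hp' : IsPGroup r (UU C x))
include hr hb hb' hp hp'

/-- the parities of the Cartan integers are preserved in odd characteristic -/
theorem x4q {q : ℕ} [Fact q.Prime] [CharP F q] {e : MulAut L} (heB : am e (BB C x) = BB C x)
    (heO : am e (BB C.opp x) = BB C.opp x) :
    ∃ π : Equiv.Perm {i // C.simp i},
      (∀ i, am e (Par (BB C x) (nn C.neg x i.1 1)) = Par (BB C x) (nn C.neg x (π i).1 1)) ∧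
      (∀ i j, C.pr i.1 j.1 = 0 ↔ C.pr (π i).1 (π j).1 = 0) ∧
      ((2 : F) ≠ 0 → ∀ i j, Even (C.pr i.1 j.1) ↔ Even (C.pr (π i).1 (π j).1)) ∧
      ((q = 2 ∨ q = 3) ∨ ∀ i j, C.pr i.1 j.1 = C.pr (π i).1 (π j).1) ∧
      ∀ n : ℕ, e ^ n = 1 → π ^ n = 1 := by
  obtain ⟨π, h1, h2, h3, σ, c, hc⟩ := h.x4b' hr hb hb' hp hp' heB heO
  refine ⟨π, h1, h2, ?_, h.third hc, h3⟩
  intro h20 i j
  have h5 := h.torus_rel (hc j).1 (hc i).1 (hc j).2 (fun t => ((hc i).2 t).1)
    (t := -1) (neg_ne_zero.2 one_ne_zero)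
  rw [map_neg, map_one, map_neg, map_one] at h5
  have hne : (-1 : F) ≠ 1 := by
    intro e0
    apply h20
    linear_combination -e0
  constructor
  · intro he
    rw [he.neg_one_zpow] at h5
    by_contra hodd
    rw [Int.not_even_iff_odd] at hodd
    rw [hodd.neg_one_zpow] at h5
    exact hne h5.symm
  · intro he
    rw [he.neg_one_zpow] at h5
    by_contra hodd
    rw [Int.not_even_iff_odd] at hodd
    rw [hodd.neg_one_zpow] at h5
    exact hne h5

end CS

end

open scoped Classical in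
/-- **X4d** with an additional condition on parities. -/
def StmtX4q : Prop := ∀ (ι : Type) [Finite ι] (F : Type) [Field F] [Finite F] (L : Type u) [Group L]
  [Finite L] (r : ℕ) [Fact r.Prime] [CharP F r] (C : RC ι) (x : ι → F → L), CS C x →
  IsSimpleGroup L → (∀ g : L, (∀ y, g * y = y * g) → g = 1) →
  ∀ p : ℕ, p.Prime → p ≠ r →
  -- the determinant of the Cartan matrix is `d`
  (∃ d : ℕ, ¬ p ∣ d ∧ ¬ p ∣ d.totient ∧ ∃ D : ι → ι → ℤ, ∃ Δ : Finset ι,
    (∀ i, i ∈ Δ ↔ C.simp i) ∧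
    ∀ i j, C.simp i → C.simp j → ∑ k ∈ Δ, D i k * C.pr j k = if i = j then (d : ℤ) else 0) →
  -- permutations of the diagram
  (∀ π : Equiv.Perm {i // C.simp i}, (∃ k, π ^ p ^ k = 1) →
    (∀ i j, C.pr i.1 j.1 = 0 ↔ C.pr (π i).1 (π j).1 = 0) →
    (r ≠ 2 → ∀ i j, Even (C.pr i.1 j.1) ↔ Even (C.pr (π i).1 (π j).1)) →
    ((r = 2 ∨ r = 3) ∨ ∀ i j, C.pr i.1 j.1 = C.pr (π i).1 (π j).1) → π = 1) →
  FewAut p L

theorem stmtX4q : StmtX4q.{u} := by
  intro ι _ F _ _ L _ _ r _ _ C x h hsimple hcen p hp hpr ⟨d, hd1, hd2, D, Δ, hΔ, hD⟩ hperm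
  have hpd : Nat.Coprime p d := hp.coprime_iff_not_dvd.2 hd1
  have hpt : Nat.Coprime p d.totient := hp.coprime_iff_not_dvd.2 hd2
  have hr : r.Prime := Fact.out
  obtain ⟨hSB, hSB', hP, hP'⟩ := h.data (r := r) hcen
  obtain ⟨l, hls, hl⟩ := C.long
  have hn₀ : nl C x l ∈ NN C x := CS.nl_mem hls
  have hopp := opp_nl h hl
  have hnI : (MulAut.conj (G := L)).range.Normal := normal_conj
  have hcyc : IsCyclic (RingAut F) := ff_cyclic
  have hfin : Finite (RingAut F) := Finite.of_injective (fun f : RingAut F => (f : F → F))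
    DFunLike.coe_injective
  -- normal form of an outer automorphism of order `p`
  have norm : ∀ f : MulAut L, OutAut p f → ∃ (e : MulAut L) (σ : RingAut F),
      (e, σ) ∈ AG C x ∧ σ ^ p = 1 ∧ σ ≠ 1 ∧ e ∈ zpowers f ⊔ (MulAut.conj (G := L)).range ∧
      f ∈ zpowers e ⊔ (MulAut.conj (G := L)).range ∧ e ^ p ∈ (MulAut.conj (G := L)).range := by
    intro f hf
    obtain ⟨e, ⟨a, hea⟩, heB, heC, hef, hfe, hep, heI⟩ := exists_e hSB hr hp hn₀ hopp hf
    have heO : am e (BB C.opp x) = BB C.opp x := by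
      rw [← h.cj_BB hl]
      exact heC
    obtain ⟨π, hπ1, hπ2, hπ3, hπ5, hπ4⟩ := h.x4q hr hSB hSB' hP hP' (q := r) heB heO
    have hπ : π = 1 := hperm π ⟨a, hπ4 _ hea⟩ hπ2 (fun hr2 => hπ3 (by
      intro e0
      have h5 : ((2 : ℕ) : F) = 0 := by exact_mod_cast e0
      rw [CharP.cast_eq_zero_iff F r] at h5
      exact hr2 ((Nat.prime_dvd_prime_iff_eq hr Nat.prime_two).1 h5))) hπ5
    obtain ⟨σ, c, hc⟩ := h.x4a hr hSB hSB' hP hP' heB heO (by
      rintro s ⟨i, hi, rfl⟩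
      have := hπ1 ⟨i, hi⟩
      rw [hπ] at this
      exact this)
    have hAG : (e, (σ : RingAut F)) ∈ AG C x := ⟨c, hc⟩
    have hAGp : (e ^ p, (σ : RingAut F) ^ p) ∈ AG C x := pow_mem hAG p
    obtain ⟨c', hc'⟩ := hAGp
    have hσp : (σ : RingAut F) ^ p = 1 :=
      sigma_one hr h hSB hls hl hep (am_pow_eq heB p) (am_pow_eq heC p) hc'
    refine ⟨e, σ, hAG, hσp, ?_, hef, hfe, hep⟩
    rintro rfl
    exact heI (mem_of_two hpd hep (inner_pow h hΔ hD hc))
  have key : ∀ f g : MulAut L, OutAut p f → OutAut p g →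
      g ∈ zpowers f ⊔ (MulAut.conj (G := L)).range := by
    intro f g hf hg
    obtain ⟨e, σ, hAG, hσp, hσ1, hef, -, hep⟩ := norm f hf
    obtain ⟨e', σ', hAG', hσp', -, -, hge, hep'⟩ := norm g hg
    obtain ⟨k, hk⟩ := mem_zpowers_cyc hp hσp hσ1 hσp'
    have hk' : σ ^ k = σ' := hk
    -- the difference
    have hδ : (e' * (e ^ k)⁻¹, (1 : RingAut F)) ∈ AG C x := by
      have h1 := mul_mem hAG' (inv_mem (zpow_mem hAG k))
      have h2 : (e', σ') * ((e, σ) ^ k)⁻¹ = (e' * (e ^ k)⁻¹, (1 : RingAut F)) := by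
        rw [Prod.ext_iff]
        refine ⟨rfl, ?_⟩
        change σ' * (σ ^ k)⁻¹ = 1
        rw [hk', mul_inv_cancel]
      rwa [h2] at h1
    obtain ⟨c, hc⟩ := hAG
    obtain ⟨c', hc'⟩ := hδ
    have hδd := inner_pow h hΔ hD hc'
    obtain ⟨m, hm⟩ := ff_aut (r := r) σ
    have hconj := Al_conj h hc hc' hm
    set I := (MulAut.conj (G := L)).range with hI
    have hδ1 : ((e' * (e ^ k)⁻¹ : MulAut L) : MulAut L ⧸ I) = 1 := by
      refine eq_one_of_conj (a := (e : MulAut L ⧸ I)) (m := r ^ m) (k := k) hp ?_ ?_ ?_ ?_ hpd hpt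
      · rw [← QuotientGroup.mk_pow]
        exact (QuotientGroup.eq_one_iff _).2 hep
      · rw [← QuotientGroup.mk_pow]
        exact (QuotientGroup.eq_one_iff _).2 hδd
      · rw [← QuotientGroup.mk_mul, ← QuotientGroup.mk_inv, ← QuotientGroup.mk_mul,
          ← QuotientGroup.mk_pow, hconj]
      · rw [← QuotientGroup.mk_zpow, ← QuotientGroup.mk_mul, inv_mul_cancel_right,
          ← QuotientGroup.mk_pow]
        exact (QuotientGroup.eq_one_iff _).2 hep'
    have hδI := (QuotientGroup.eq_one_iff _).1 hδ1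
    have he'e : e' ∈ zpowers e ⊔ I := by
      have h1 : e' = (e' * (e ^ k)⁻¹) * e ^ k := by rw [inv_mul_cancel_right]
      rw [h1]
      exact mul_mem ((le_sup_right : I ≤ _) hδI)
        ((le_sup_left : zpowers e ≤ _) (zpow_mem (mem_zpowers e) k))
    have h1 : zpowers e ⊔ I ≤ zpowers f ⊔ I :=
      sup_le (by rw [zpowers_le]; exact hef) le_sup_right
    have h2 : zpowers e' ⊔ I ≤ zpowers f ⊔ I :=
      sup_le (by rw [zpowers_le]; exact h1 he'e) le_sup_right
    exact h2 hge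
  exact ⟨fun f g _ hf hg _ => Or.inl (key f g hf hg), Or.inl fun f g hf hg => key f g hf hg⟩

/-- **`G₂` in characteristic three** -/
theorem few_G2_char3 {ι : Type} [Finite ι] {F : Type} [Field F] [Finite F] {L : Type u} [Group L]
    [Finite L] [CharP F 3] {C : RC ι} {x : ι → F → L} (h : CS C x) (_hs : IsSimpleGroup L)
    (hZ : ∀ g : L, (∀ y, g * y = y * g) → g = 1) {a b : ι}
    (hab : ∀ i, C.simp i ↔ i = a ∨ i = b) (h1 : C.pr a b = -1) (h3 : C.pr b a = -3) :
    FewAut 2 L :=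
  few_G2_three ι F L C x h hZ (by
    rintro rfl
    rw [h1] at h3
    norm_num at h3) hab h1 h3

end Vale.Agent.P240.R2.H986.X
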